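import Vale.Agent.P352X.R.CONT.A
import Vale.Agent.P352Z.R.Ld

/-!
# P352Z (port of P352X), row CONT, part A: factorization of the faces (helper89)
-/

set_option linter.all false

open MeasureTheory Filter Topology
open scoped SchwartzMap ComplexConjugate ENNReal ContDiff

namespace Vale.Agent.P352X.ZZ

open Vale.Agent.P352 Vale.Agent.P352.GF Vale.Agent.P352.BW Vale.Agent.P352.H246
open Vale.Agent.P352.H496 Vale.Agent.P352.H755 Vale.Agent.P352.H15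
open UniformSpace (Completion)
open Far Ld

noncomputable section

namespace Cont

export Vale.Agent.P352X.Cont (Apx xi xx tst_xi tst_xx tsupport_dlt tst_dlt supp_dlt stp stp_lo
  smooth_stp abv_eq tst_abv supp_abv in_pr pf0 pf0_eq dc_two tsupport_two dc_pf0 legs_pf0 dc_tri'
  tq sm_xx sm_xi tq_apply triF_apply triF_dec triF_add late_be ps dc_ps sm_p1 sm_p2 triF_dec')
export Ev (Th_eq Th_add Th_lin)

/-! ### factorization -/

variable {D : Type*} [NormedAddCommGroup D] [InnerProductSpace ℂ D] (c : Ctx D)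

/-- the third leg is not later than the two others -/
theorem fac_lo [Fact c.tp] (f : Sch) (G G' : S2) (F : S3) (e : ∀ x y z, F (x, y, z) = G (y, x) * f z)
    (e' : ∀ x, G' x = star (G x)) (h : Late (legs G) (tsupport f)) :
    c.t0 F = inner ℂ (w0 c.wm G') (c.Th (ev f)) := by
  have key : ∀ I J K : I2, c.t I J K (p31 I.2 (p33 K.2 F)) = inner ℂ (c.wm J I (p22 I.2 G'))
      ((c.T K.1 K.2 (pd K.2 (ev f)) c.Q.vac : D) : Completion D) := by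
    intro I J K
    rw [c.hTP.swap1 I J K _ (SchwartzMap.compCLMOfContinuousLinearEquiv ℂ sw1
      (p31 I.2 (p33 K.2 F))) fun _ _ _ => rfl, ← Ev.ev_pd]
    exact c.hTP.fac3 J I K (p22 I.2 G) _ _ _ (fun x y z => p3_prod e I.2 K.2 y x z)
      (Ev.ld_star e' _) (late_mono h (legs_p22 _ _) (Ev.tsupport_ld _ f))
  rw [w0_eq, Th_eq2 c ⟨f, rfl⟩, Ld.t0_eq, Finset.sum_comm]
  simp only [sum_inner, inner_smul_left]
  simp only [key, inner_sum, inner_smul_right, map_mul, conj_a1, conj_a2, Finset.mul_sum]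
  exact Finset.sum_congr rfl fun _ _ => Finset.sum_congr rfl fun _ _ =>
    Finset.sum_congr rfl fun _ _ => by ring

/-- the third leg is not earlier than the two others -/
theorem fac_hi [Fact c.tp] (f : Sch) (G : S2) (F : S3) (e : ∀ x y z, F (x, y, z) = G (y, x) * f z)
    (h : Late (tsupport f) (legs G)) :
    c.t0 F = inner ℂ (c.Th (bar (ev f))) (w0 c.wp G) := by
  have key : ∀ I J K : I2, c.t I J K (p31 I.2 (p33 K.2 F)) = inner ℂ
      ((c.T K.1 K.2 (pd K.2 (bar (ev f))) c.Q.vac : D) : Completion D) (c.wp J I (p22 I.2 G)) := by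
    intro I J K
    set F' := p31 I.2 (p33 K.2 F)
    rw [c.hTP.swap1 I J K F' (SchwartzMap.compCLMOfContinuousLinearEquiv ℂ sw1 F') fun _ _ _ => rfl,
      c.hTP.swap2 J I K _ (SchwartzMap.compCLMOfContinuousLinearEquiv ℂ (sw2.trans sw1) F')
        fun _ _ _ => rfl,
      c.hTP.swap1 J K I _ (SchwartzMap.compCLMOfContinuousLinearEquiv ℂ
        (sw1.trans (sw2.trans sw1)) F') fun _ _ _ => rfl, ← Ev.bar_pd, ← Ev.ev_pd]
    exact c.hTP.fac1 K J I _ (p22 I.2 G) _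
      (fun x y z => (p3_prod e I.2 K.2 z y x).trans (mul_comm _ _))
      (late_mono h (Ev.tsupport_ld _ f) (legs_p22 _ _))
  rw [w0_eq, Th_eq2 c (isTest_bar ⟨f, rfl⟩), Ld.t0_eq, Finset.sum_comm]
  simp only [inner_sum, inner_smul_right]
  simp only [key, sum_inner, inner_smul_left, conj_a1, Finset.mul_sum]
  exact Finset.sum_congr rfl fun _ _ => Finset.sum_congr rfl fun _ _ =>
    Finset.sum_congr rfl fun _ _ => by ring

lemma t0_smul (a : ℂ) (F : S3) : c.t0 (a • F) = a * c.t0 F := by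
  simp only [← t0L_apply, map_smul, smul_eq_mul]

lemma t0_sub (F G : S3) : c.t0 (F - G) = c.t0 F - c.t0 G := by
  simp only [← t0L_apply, map_sub]

section tri

variable {W : R2 → ℝ} {κ f g : P3 → ℝ} {ρ θ1 φ : ℝ → ℝ} {δ L : ℝ}

lemma tq_lo [Fact c.tp] (hW : ContDiff ℝ ∞ W) (hκ : Tst κ) (hf : Tst f) (hg : Tst g) (hρ : Tst ρ)
    (h1 : Tst θ1) (hφ : Tst φ) (hδ : 0 < δ) (hL : 0 < L)
    (h : ∀ s ∈ tsupport (dlt δ ρ) ∪ tsupport θ1, ∀ t ∈ tsupport φ, t < s) :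
    c.t0 (tq W κ f g ρ θ1 φ δ L) = inner ℂ (w0 c.wm (pairF W κ f ρ θ1 δ L)) (c.Th (pr g φ)) := by
  have hp := dc_pf0 hW hκ hf hρ h1 hδ hL
  have h3 := dc_pr hg hφ
  rw [fac_lo c (sch (pr g φ)) (sch (pf0 W κ f ρ θ1 δ L)) (sch (pf0 W κ f ρ θ1 δ L)) _
    (fun x y z => by rw [tq_apply hW hκ hf hg hρ h1 hφ hδ hL, sch_apply hp, sch_apply h3])
    (fun x => by rw [sch_apply hp, pf0, Complex.star_def, Complex.conj_ofReal])
    (by
      rw [sch_coe hp, sch_coe h3]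
      exact late_be fun x hx y hy => h _ (legs_pf0 hx) _ (tsupport_pr _ _ hy).2), ev, sch_coe h3]
  rfl

lemma tq_hi [Fact c.tp] (hW : ContDiff ℝ ∞ W) (hκ : Tst κ) (hf : Tst f) (hg : Tst g) (hρ : Tst ρ)
    (h1 : Tst θ1) (hφ : Tst φ) (hδ : 0 < δ) (hL : 0 < L)
    (h : ∀ s ∈ tsupport (dlt δ ρ) ∪ tsupport θ1, ∀ t ∈ tsupport φ, s < t) :
    c.t0 (tq W κ f g ρ θ1 φ δ L) = inner ℂ (c.Th (pr g φ)) (w0 c.wp (pairF W κ f ρ θ1 δ L)) := by
  have hp := dc_pf0 hW hκ hf hρ h1 hδ hL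
  have h3 := dc_pr hg hφ
  rw [fac_hi c (sch (pr g φ)) (sch (pf0 W κ f ρ θ1 δ L)) _
    (fun x y z => by rw [tq_apply hW hκ hf hg hρ h1 hφ hδ hL, sch_apply hp, sch_apply h3])
    (by
      rw [sch_coe hp, sch_coe h3]
      exact late_be fun x hx y hy => h _ (legs_pf0 hy) _ (tsupport_pr _ _ hx).2), ev, sch_coe h3,
    bar_pr]
  rfl

end tri

/-! ### the sum of the moments -/

lemma PF_pr (f g : P3 → ℝ) (α β : ℝ → ℝ) : c.PF (pr f α) (pr g β) =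
    inner ℂ (c.Th (pr f α)) (gen c.SK (c.Th (pr g β))) -
    ∑ i, (inner ℂ (c.Th (pr (xi i f) α)) (gen (Mi c.Q i) (c.Th (pr g β))) +
      inner ℂ (c.Th (pr f α)) (gen (Mi c.Q i) (c.Th (pr (xi i g) β)))) +
    ∑ i, inner ℂ (c.Th (pr (xi i f) α)) (gen (Pa c.Q) (c.Th (pr (xi i g) β))) := by
  have e : ∀ (i : Fin 2) (f : P3 → ℝ) (α : ℝ → ℝ),
      (fun z => ((tx z i : ℝ) : ℂ) * pr f α z) = pr (xi i f) α := fun i f α => by
    funext z
    simp only [pr, xi, pl_2]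
    push_cast
    ring
  simp only [Ctx.PF, e, bar_pr]

/-- the combination of the moments -/
def SS (w : I2 → I2 → S2 →L[ℂ] Completion D) (κ f g : P3 → ℝ) (ρ θ1 φ : ℝ → ℝ) (δ L : ℝ) : ℂ :=
  inner ℂ (w0 w (pairF (fun x => d2 x x) κ f ρ θ1 δ L)) (c.Th (pr g φ)) +
    (inner ℂ (w0 w (pairF (fun x => x 0) κ (xi 0 f) ρ θ1 δ L)) (c.Th (pr g φ)) +
      inner ℂ (w0 w (pairF (fun x => x 1) κ (xi 1 f) ρ θ1 δ L)) (c.Th (pr g φ))) -
    (inner ℂ (w0 w (pairF (fun x => x 0) κ f ρ θ1 δ L)) (c.Th (pr (xi 0 g) φ)) +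
      inner ℂ (w0 w (pairF (fun x => x 1) κ f ρ θ1 δ L)) (c.Th (pr (xi 1 g) φ)))

variable {c}

theorem core (hM : CONM c) (hK : CONK c) {w : I2 → I2 → S2 →L[ℂ] Completion D}
    (hw : TP2 c.Q c.T false w) {κ f g : P3 → ℝ} {ρ θ1 θ φ : ℝ → ℝ} (hκ : Cut κ) (hf : Tst f)
    (hg : Tst g) (hρ : Tst ρ) (hρ' : tsupport ρ ⊆ Set.Icc (-1 / 2) (1 / 2)) (h1 : Tst θ1)
    (hθ : Bump θ) (hφ : Tst φ) (hφ' : tsupport φ ⊆ Set.Iio 0) :
    Apx (SS c w κ f g ρ θ1 φ) fun δ => (∫ t, ρ t : ℝ) * c.PF (pr f (abv θ1 θ δ)) (pr g φ) := by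
  have i1 := in_pr hg hφ hφ'
  have i2 := fun i => in_pr (tst_xi hg i) hφ hφ'
  have k : Apx _ _ := hK w κ f ρ θ1 θ _ hw hκ hf hρ hρ' h1 hθ i1
  have m1 : ∀ i, Apx _ _ := fun i => hM w κ (xi i f) ρ θ1 θ _ i hw hκ (tst_xi hf i) hρ hρ' h1 hθ i1
  have m2 : ∀ i, Apx _ _ := fun i => hM w κ f ρ θ1 θ _ i hw hκ hf hρ hρ' h1 hθ (i2 i)
  refine ((k.add ((m1 0).add (m1 1))).sub ((m2 0).add (m2 1))).congr
    (.of_forall fun δ => .of_forall fun L => rfl) ?_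
  filter_upwards [self_mem_nhdsWithin] with δ hδ
  have ha := tst_abv h1 hθ hδ
  have e : c.Th (pr (fun y => d2 y.2 y.2 * f y) (abv θ1 θ δ)) =
      c.Th (pr (fun y => y.2 0 * xi 0 f y) (abv θ1 θ δ)) +
      c.Th (pr (fun y => y.2 1 * xi 1 f y) (abv θ1 θ δ)) := by
    refine Eq.trans ?_ (Th_add c (isTest_dc (dc_pr (tst_xi (tst_xi hf 0) 0) ha))
      (isTest_dc (dc_pr (tst_xi (tst_xi hf 1) 1) ha)))
    congr 1
    funext z
    simp only [pr, xi, d2]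
    push_cast
    ring
  rw [PF_pr, Ctx.AbK, e, inner_add_left]
  simp only [Fin.sum_univ_two]
  unfold xi
  ring

/-- both legs on one side -/
theorem side (hF : FAR c) {κ f g : P3 → ℝ} {ρ θ1 φ : ℝ → ℝ} {δ u : ℝ} (hκ : Tst κ) (hf : Tst f)
    (hg : Tst g) (hρ : Tst ρ) (h1 : Tst θ1) (hφ : Tst φ) (hδ : 0 < δ)
    (hs : tsupport (dlt δ ρ) ⊆ Set.Ioo (-u) u)
    (h : tsupport θ1 ∪ tsupport φ ⊆ Set.Iio (-u) ∨ tsupport θ1 ∪ tsupport φ ⊆ Set.Ioi u) :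
    Tendsto (fun L => c.t0 (triF κ f g ρ θ1 φ δ L)) atTop (𝓝 0) := by
  have key : ∀ (κ' : P3 → ℝ) (p : V × V → ℝ), Tst κ' → ContDiff ℝ ∞ p →
      Tendsto (fun L : ℝ => (L : ℂ) * c.t0 (tri (ps p f g θ1 φ) κ' (dlt δ ρ) L)) atTop (𝓝 0) :=
    fun κ' p hκ' hp => by
      refine hF.side u κ' _ _ hκ' (tst_dlt hρ hδ) (dc_ps hp hf hg h1 hφ) hs
        (h.imp (fun h z hz => ?_) fun h z hz => ?_) <;>
      exact ⟨h (.inl (tsupport_pr _ _ (tsupport_two _ _ _ hz).1).2),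
        h (.inr (tsupport_pr _ _ (tsupport_two _ _ _ hz).2).2)⟩
  have l1 : Tendsto (fun L : ℝ => (((Real.sqrt L)⁻¹ : ℝ) : ℂ)) atTop (𝓝 0) :=
    (Complex.continuous_ofReal.tendsto 0).comp
      (tendsto_inv_atTop_zero.comp Real.tendsto_sqrt_atTop)
  have l2 : Tendsto (fun L : ℝ => ((L⁻¹ : ℝ) : ℂ)) atTop (𝓝 0) :=
    (Complex.continuous_ofReal.tendsto 0).comp tendsto_inv_atTop_zero
  have := ((key _ _ (tst_xx hκ) (contDiff_const (c := 1))).sub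
    ((l1.mul (key _ _ (tst_xi hκ 0) (sm_p1 0))).add (l1.mul (key _ _ (tst_xi hκ 1) (sm_p1 1))))).add
    (l2.mul (key _ _ hκ sm_p2))
  rw [mul_zero, add_zero, add_zero, sub_zero] at this
  refine this.congr' ?_
  filter_upwards [eventually_gt_atTop (0 : ℝ)] with L hL
  rw [triF_dec' hκ hf hg hρ h1 hφ hδ hL, t0_add, t0_sub, t0_add, t0_smul, t0_smul, t0_smul,
    ← mul_assoc, ← mul_assoc, ← mul_assoc, ← Complex.ofReal_mul, ← Complex.ofReal_mul,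
    inv_mul_cancel₀ hL.ne', inv_mul_eq_div, Real.div_sqrt, Complex.ofReal_one, one_mul]

end Cont

end

end Vale.Agent.P352X.ZZ
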