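import Vale.Agent.P352X.R.CONT.B
import Vale.Agent.P352Z.R.CONT.A

/-!
# P352Z (port of P352X), row CONT, part B: the mirror, and the limits of the faces (helper89)
-/

set_option linter.all false

open MeasureTheory Filter Topology
open scoped SchwartzMap ComplexConjugate ENNReal ContDiff

namespace Vale.Agent.P352X.ZZ

open Vale.Agent.P352 Vale.Agent.P352.GF Vale.Agent.P352.BW Vale.Agent.P352.H246
open Vale.Agent.P352.H496 Vale.Agent.P352.H755 Vale.Agent.P352.H15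
open UniformSpace (Completion)
open Far Ld

noncomputable section

namespace Cont

export Vale.Agent.P352X.Cont (mj ng tst_mj cut_mj tst_ng supp_ng ng_ng blw_eq pr_jr pf0_jr slab
  slab' gsym sim_bas jr_zero st smooth_st st_lo st_hi cutθ supp_ng_lo)

/-! ### the modular conjugation -/

variable {D : Type*} [NormedAddCommGroup D] [InnerProductSpace ℂ D] {c : Ctx D}

lemma J_inner (x y : Completion D) : inner ℂ (c.J x) (c.J y) = inner ℂ y x :=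
  c.E.inner_J_J x y

lemma va_sj (k : Ix) : va k * sj k = -va k := by fin_cases k <;> simp [va, sj]

lemma J_Th (hj : JC c) {f : Fn} (hf : IsTest f) :
    c.J (c.Th f) = -c.Th (bar fun z => f (jr z)) := by
  have t : ∀ {g : Fn}, IsTest g → IsTest (bar fun z => g (jr z)) := fun hg =>
    Ap.test_bar (Ap.test_conf0 conf_jr hg)
  have e : ∀ m n, c.T m n (pd n (bar fun z => f (jr z))) c.Q.vac =
      ((sj n : ℝ) : ℂ) • c.T m n (bar fun z => pd n f (jr z)) c.Q.vac := fun m n => by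
    rw [← T_smul c m n _ (t (Ap.test_pd n hf)), ← Ev.bar_pd]
    congr 1
    funext x
    simp only [bar, pd_jr, star_mul', Complex.star_def, Complex.conj_ofReal]
  rw [Th_eq c hf, Th_eq c (t hf)]
  simp only [map_sum, map_smulₛₗ, fun m n => hj.one m n _ (Ap.test_pd n hf), Complex.conj_ofReal, e,
    Completion.coe_smul, smul_smul, ← Complex.ofReal_mul, ← Finset.sum_neg_distrib, ← neg_smul,
    ← Complex.ofReal_neg]
  refine Finset.sum_congr rfl fun m _ => Finset.sum_congr rfl fun n _ => ?_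
  congr 2
  linear_combination (eta m * sj n) * va_sj m

lemma J_pr (hj : JC c) {f : P3 → ℝ} {φ : ℝ → ℝ} (hf : Tst f) (hφ : Tst φ) :
    c.J (c.Th (pr f φ)) = -c.Th (pr (mj f) (ng φ)) := by
  rw [J_Th hj (isTest_dc (dc_pr hf hφ)), pr_jr]

lemma J_pr' (hj : JC c) {f : P3 → ℝ} {φ : ℝ → ℝ} (hf : Tst f) (hφ : Tst φ) :
    c.Th (pr (mj f) (ng φ)) = -c.J (c.Th (pr f φ)) := by
  rw [J_pr hj hf hφ, neg_neg]

lemma J_w0 {w : I2 → I2 → S2 →L[ℂ] Completion D} (hw : ∀ K M (F G : S2),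
    (∀ x y, G (x, y) = conj (F (jr x, jr y))) →
      w K M G = ((sj K.1 * sj K.2 * (sj M.1 * sj M.2) : ℝ) : ℂ) • c.J (c.wp K M F))
    {F G : S2} (e : ∀ x y, G (x, y) = conj (F (jr x, jr y))) : w0 w G = -c.J (w0 c.wp F) := by
  simp only [w0, map_sum, map_smulₛₗ, fun K M q => hw K M _ _ (p22_jr e q), RingHom.id_apply,
    Complex.conj_ofReal, smul_smul, ← Complex.ofReal_mul, ← Finset.sum_neg_distrib, ← neg_smul,
    ← Complex.ofReal_neg]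
  refine Finset.sum_congr rfl fun k _ => Finset.sum_congr rfl fun l _ =>
    Finset.sum_congr rfl fun p _ => Finset.sum_congr rfl fun q _ => ?_
  congr 2
  trans eta k * (va k * sj k) * (eta l * (va l * sj l)) * (eta p * (va p * sj p)) * (sj q * sj q)
  · ring
  · rw [va_sj, va_sj, va_sj, sj_sq]
    ring

lemma J_ug (hj : JC c) {L L' : Ix → V} {a a' : V} (hL : IsLor L) (ha : jr a = a')
    (e : ∀ z, sim 1 L' 0 (jr z) = jr (sim 1 L 0 z)) (z : Completion D) :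
    c.J (Ug c.Q 1 L a z) = Ug c.Q 1 L' a' (c.J z) := by
  have : jL L = L' := funext fun m => by
    rw [← sim_bas (jL L), ← sim_bas L', ← jr_jr (GF.one m), e, ← (hj.lor L hL).2, jr_zero]
  rw [hj.ug _ _ _ _ one_pos hL, this, ha]

lemma J_Mi (hg : GRP c) (hj : JC c) (i : Fin 2) (t : ℝ) (z : Completion D) :
    c.J (Mi c.Q i t z) = Mi c.Q i (-t) (c.J z) := by
  refine J_ug hj (hg.lga _).1 jr_zero (fun z => ?_) z
  rw [(hg.lga _).2, (hg.lga _).2]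
  refine null_ext ?_ (by simp) (by simp)
  simp only [al_gap, al_jr, be_jr, tx_jr, neg_smul, d2_neg, d2_neg_l]
  ring

lemma J_Pa (hj : JC c) (t : ℝ) (z : Completion D) :
    c.J (Pa c.Q t z) = Pa c.Q (-t) (c.J z) := by
  have e : ∀ z, sim 1 GF.one 0 z = z := fun z => funext fun n => by simp [sim, GF.one, bas]
  exact J_ug hj H496.isLor_one (null_ext (by simp) (by simp) (by simp)) (fun z => by rw [e, e]) z

lemma mir {W : ℝ → Completion D →L[ℂ] Completion D} (h0 : W 0 = 1)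
    (hu : ∀ t, W t ∈ unitary (Completion D →L[ℂ] Completion D))
    (hJ : ∀ t z, c.J (W t z) = W (-t) (c.J z)) {x y : Completion D} (hx : Dm W x) (hy : Dm W y) :
    inner ℂ (c.J x) (gen W (c.J y)) = inner ℂ y (gen W x) := by
  rw [(hy.gn.anti_neg c.J fun t => hJ t y).gen_eq, J_inner, gsym h0 hu hy hx]

lemma gen_neg' (W : ℝ → Completion D →L[ℂ] Completion D) (x : Completion D) :
    gen W (-x) = -gen W x := by
  simp only [gen, map_neg, deriv.fun_neg, smul_neg]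

lemma dm_SK (hg : GRP c) (hk' : KD c) {f : P3 → ℝ} {φ : ℝ → ℝ} (hf : Tst f) (hφ : Tst φ)
    (h : tsupport φ ⊆ Set.Iio 0 ∨ tsupport φ ⊆ Set.Ioi 0) : Dm c.SK (c.Th (pr f φ)) := by
  obtain ⟨b1, b2, h1, h2⟩ : ∃ b1 b2 : ℝ, (b2 < 0 ∨ 0 < b1) ∧ tsupport φ ⊆ Set.Icc b1 b2 := by
    rcases h with h | h
    · obtain ⟨b1, b2, h1, h2⟩ := slab hφ h
      exact ⟨b1, b2, .inl h1, h2⟩
    · obtain ⟨b1, b2, h1, h2⟩ := slab' hφ h
      exact ⟨b1, b2, .inr h1, h2⟩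
  obtain ⟨m, C, H⟩ := hk'.slab b1 b2 h1
  have hd := dc_pr hf hφ
  have key : ∀ h k v, Dm c.SK (c.Tv (hk h k (dv v (pr f φ)))) := fun h k v => by
    have hv : Dc (dv v (pr f φ)) := ⟨Ap.smooth_dv hd.1 v,
      hd.2.isCompact.of_isClosed_subset (isClosed_tsupport _) (Ap.tsupport_dv _ _)⟩
    have := (H h k (sch (dv v (pr f φ))) (by
      rw [sch_coe hv]
      exact fun z hz => h2 (tsupport_pr _ _ (Ap.tsupport_dv _ _ hz)).2)).1
    rwa [ev, sch_coe hv] at this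
  rw [Ev.Th_null hg (isTest_dc hd)]
  exact ((key _ _ _).add (key _ _ _)).sub (Dm.sum _ fun i _ => key _ _ _)

/-- the mirror image of the plane form -/
theorem PF_mir (h : T2 c) {f g : P3 → ℝ} {α β : ℝ → ℝ} (hf : Tst f) (hg : Tst g) (hα : Tst α)
    (hβ : Tst β) (sα : tsupport α ⊆ Set.Iio 0) (sβ : tsupport β ⊆ Set.Ioi 0) :
    c.PF (pr g β) (pr f α) = c.PF (pr (mj f) (ng α)) (pr (mj g) (ng β)) := by
  have dM : ∀ i {f : P3 → ℝ} {φ : ℝ → ℝ}, Tst f → Tst φ → Dm (Mi c.Q i) (c.Th (pr f φ)) :=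
    fun i _ _ hf hφ => (h.gen.mith i _ (isTest_dc (dc_pr hf hφ))).dm
  have dP : ∀ {f : P3 → ℝ} {φ : ℝ → ℝ}, Tst f → Tst φ → Dm (Pa c.Q) (c.Th (pr f φ)) :=
    fun hf hφ => (h.gen.uth va _ (isTest_dc (dc_pr hf hφ))).dm
  have mM : ∀ i {x y}, Dm (Mi c.Q i) x → Dm (Mi c.Q i) y →
      inner ℂ (c.J x) (gen (Mi c.Q i) (c.J y)) = inner ℂ y (gen (Mi c.Q i) x) := fun i _ _ =>
    mir ((congrArg (Ga c.Q) (zero_smul _ _)).trans h.grp.ga0) (fun t => h.grp.uni _ _ _) (J_Mi h.grp h.jc i)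
  have mP : ∀ {x y}, Dm (Pa c.Q) x → Dm (Pa c.Q) y →
      inner ℂ (c.J x) (gen (Pa c.Q) (c.J y)) = inner ℂ y (gen (Pa c.Q) x) :=
    mir ((congrArg (Ut c.Q) (zero_smul _ _)).trans h.grp.ut0) (fun t => h.grp.uni _ _ _) (J_Pa h.jc)
  have e : ∀ i (f : P3 → ℝ), xi i (mj f) = mj (xi i f) := fun _ _ => rfl
  rw [PF_pr, PF_pr]
  simp only [e, J_pr' h.jc hf hα, J_pr' h.jc hg hβ, J_pr' h.jc (tst_xi hf _) hα,
    J_pr' h.jc (tst_xi hg _) hβ, gen_neg', inner_neg_left, inner_neg_right, neg_neg]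
  rw [mir (c.hS.zero va null_va) (fun t => h.grp.S_uni va t null_va) h.jc.S
    (dm_SK h.grp h.kd hf hα (.inl sα)) (dm_SK h.grp h.kd hg hβ (.inr sβ))]
  congr 1
  · congr 1
    refine Finset.sum_congr rfl fun i _ => ?_
    rw [mM i (dM i (tst_xi hf i) hα) (dM i hg hβ), mM i (dM i hf hα) (dM i (tst_xi hg i) hβ),
      add_comm]
  · exact Finset.sum_congr rfl fun i _ => (mP (dP (tst_xi hf i) hα) (dP (tst_xi hg i) hβ)).symm

/-! ### the faces -/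

section face

variable {κ f g : P3 → ℝ} {ρ θ1 θ φ : ℝ → ℝ}

theorem lo1 [Fact c.tp] (hF : FAR c) (hM : CONM c) (hK : CONK c) (hκ : Cut κ) (hf : Tst f) (hg : Tst g)
    (hρ : Tst ρ) (hρ' : tsupport ρ ⊆ Set.Icc (-1 / 2) (1 / 2)) (h1 : Tst θ1) (hθ : Bump θ)
    (hφ : Tst φ) (hφ' : tsupport φ ⊆ Set.Iio 0) :
    Apx (fun δ L => c.t0 (triF κ f g ρ θ1 φ δ L))
      fun δ => (∫ t, ρ t : ℝ) * c.PF (pr f (abv θ1 θ δ)) (pr g φ) := by
  obtain ⟨b1, b2, hb, hs⟩ := slab hφ hφ'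
  have hu : 0 < -b2 / 4 := by linarith
  obtain ⟨θ2, θ3, h2, h3, e, s2, s3, e'⟩ := cutθ h1 hu
  have a1 := core hM hK c.hTP.tm hκ hf hg hρ hρ' h2 hθ hφ hφ'
  have a2 : Apx (fun δ L => c.t0 (triF κ f g ρ θ3 φ δ L)) fun _ => 0 := .of_lim (by
    filter_upwards [Ioc_mem_nhdsGT hu] with δ hδ
    refine side hF hκ.1 hf hg hρ h3 hφ hδ.1 (supp_dlt hρ' hδ.1 hδ.2) (.inl ?_)
    rintro t (ht | ht)
    · exact s3 ht
    · have := (hs ht).2
      show t < _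
      linarith)
  refine (a1.add a2).congr ?_ (.of_forall fun δ => by rw [e', add_zero])
  filter_upwards [Ioc_mem_nhdsGT hu] with δ hδ
  filter_upwards [eventually_gt_atTop (0 : ℝ)] with L hL
  have H : ∀ s ∈ tsupport (dlt δ ρ) ∪ tsupport θ2, ∀ t ∈ tsupport φ, t < s := by
    rintro s (h | h) t ht
    · linarith [(hs ht).2, (supp_dlt hρ' hδ.1 hδ.2 h).1]
    · linarith [(hs ht).2, show -3 * (-b2 / 4) ≤ s from s2 h]
  rw [triF_add hκ.1 hf hg hρ h1 h2 h3 e hφ hδ.1 hL, t0_add, triF_dec hκ.1 hf hg hρ h2 hφ hδ.1 hL,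
    t0_sub, t0_add, t0_add, t0_add, tq_lo c sm_xx hκ.1 hf hg hρ h2 hφ hδ.1 hL H,
    tq_lo c (sm_xi 0) hκ.1 (tst_xi hf 0) hg hρ h2 hφ hδ.1 hL H,
    tq_lo c (sm_xi 1) hκ.1 (tst_xi hf 1) hg hρ h2 hφ hδ.1 hL H,
    tq_lo c (sm_xi 0) hκ.1 hf (tst_xi hg 0) hρ h2 hφ hδ.1 hL H,
    tq_lo c (sm_xi 1) hκ.1 hf (tst_xi hg 1) hρ h2 hφ hδ.1 hL H]
  rfl

theorem PF_hi (h : T2 c) (hf : Tst f) (hg : Tst g) (h1 : Tst θ1) (hθ : Bump θ) (hφ : Tst φ)
    (hφ' : tsupport φ ⊆ Set.Ioi 0) {δ : ℝ} (hδ : 0 < δ) : c.PF (pr g φ) (pr f (blw θ1 θ δ)) =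
      c.PF (pr (mj f) (abv (ng θ1) θ δ)) (pr (mj g) (ng φ)) := by
  rw [blw_eq θ1 hθ, PF_mir h hf hg (tst_ng (tst_abv (tst_ng h1) hθ hδ)) hφ
    (supp_ng_lo fun t ht => hδ.trans_le (supp_abv _ hθ hδ ht)) hφ', ng_ng]

theorem hi1 [Fact c.tp] (h : T2 c) (hF : FAR c) (hM : CONM c) (hK : CONK c) (hκ : Cut κ) (hf : Tst f)
    (hg : Tst g) (hρ : Tst ρ) (hρ' : tsupport ρ ⊆ Set.Icc (-1 / 2) (1 / 2)) (h1 : Tst θ1)
    (hθ : Bump θ) (hφ : Tst φ) (hφ' : tsupport φ ⊆ Set.Ioi 0) :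
    Apx (fun δ L => c.t0 (triF κ f g ρ θ1 φ δ L))
      fun δ => (∫ t, ρ t : ℝ) * c.PF (pr g φ) (pr f (blw θ1 θ δ)) := by
  obtain ⟨w, hw, hw'⟩ := h.mir Fact.out
  obtain ⟨b1, b2, hb, hs⟩ := slab' hφ hφ'
  have hu : 0 < b1 / 4 := by linarith
  obtain ⟨θ2, θ3, h2, h3, e, s2, s3, e'⟩ := cutθ (tst_ng h1) hu
  have a1 := core hM hK hw (cut_mj hκ) (tst_mj hf) (tst_mj hg) (tst_ng hρ) (fun t ht => by
    obtain ⟨a, b⟩ := hρ' (supp_ng ht)
    constructor <;> linarith) h2 hθ (tst_ng hφ) (supp_ng_lo hφ')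
  have a2 : Apx (fun δ L => c.t0 (triF κ f g ρ (ng θ3) φ δ L)) fun _ => 0 := .of_lim (by
    filter_upwards [Ioc_mem_nhdsGT hu] with δ hδ
    refine side hF hκ.1 hf hg hρ (tst_ng h3) hφ hδ.1 (supp_dlt hρ' hδ.1 hδ.2) (.inr ?_)
    rintro t (ht | ht)
    · exact show b1 / 4 < t from neg_lt_neg_iff.1 (s3 (supp_ng ht))
    · have := (hs ht).1
      show _ < t
      linarith)
  refine (a1.add a2).congr ?_ ?_
  · filter_upwards [Ioc_mem_nhdsGT hu] with δ hδ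
    filter_upwards [eventually_gt_atTop (0 : ℝ)] with L hL
    have g2 := tst_ng h2
    have H : ∀ s ∈ tsupport (dlt δ ρ) ∪ tsupport (ng θ2), ∀ t ∈ tsupport φ, s < t := by
      rintro s (h | h) t ht
      · linarith [(hs ht).1, (supp_dlt hρ' hδ.1 hδ.2 h).2]
      · linarith [(hs ht).1, show -3 * (b1 / 4) ≤ -s from s2 (supp_ng h)]
    have key : ∀ {W : R2 → ℝ} {f g : P3 → ℝ}, ContDiff ℝ ∞ W → Tst f → Tst g →
        c.t0 (tq W κ f g ρ (ng θ2) φ δ L) =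
          inner ℂ (w0 w (pairF W (mj κ) (mj f) (ng ρ) θ2 δ L)) (c.Th (pr (mj g) (ng φ))) := by
      intro W f g hW hf hg
      rw [tq_hi c hW hκ.1 hf hg hρ g2 hφ hδ.1 hL H, ← J_inner, J_pr h.jc hg hφ, J_w0 hw'
        (F := pairF W κ f ρ (ng θ2) δ L) (G := pairF W (mj κ) (mj f) (ng ρ) θ2 δ L) fun x y => ?_,
        inner_neg_left, inner_neg_right]
      refine (sch_apply (dc_pf0 hW (tst_mj hκ.1) (tst_mj hf) (tst_ng hρ) h2 hδ.1 hL) _).trans ?_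
      rw [show pairF W κ f ρ (ng θ2) δ L (jr x, jr y) = _ from
        sch_apply (dc_pf0 hW hκ.1 hf hρ g2 hδ.1 hL) _, ← pf0_jr, ng_ng]
    rw [triF_add hκ.1 hf hg hρ h1 g2 (tst_ng h3) (fun t => by
        have := e (-t)
        rwa [ng, neg_neg] at this) hφ hδ.1 hL, t0_add,
      triF_dec hκ.1 hf hg hρ g2 hφ hδ.1 hL, t0_sub, t0_add, t0_add, t0_add, key sm_xx hf hg,
      key (sm_xi 0) (tst_xi hf 0) hg, key (sm_xi 1) (tst_xi hf 1) hg,
      key (sm_xi 0) hf (tst_xi hg 0), key (sm_xi 1) hf (tst_xi hg 1)]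
    rfl
  · filter_upwards [self_mem_nhdsWithin] with δ hδ
    rw [PF_hi h hf hg h1 hθ hφ hφ' hδ, e', add_zero]
    congr 2
    exact (integral_neg_eq_self ρ volume).symm

end face

end Cont

end

end Vale.Agent.P352X.ZZ
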